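import Crest.Prelude.Def_L1GroupAlgebra

/-! Row 192: an ℓ¹ idempotent is replaced by a finitely supported almost idempotent `a`, and the
class traces of `e` are limits of class traces of polynomials in `a`. -/

set_option autoImplicit false
set_option linter.unusedSectionVars false

open Crest.AlgebraR.L1 Filter Topology Polynomial

namespace Crest.Agent.R192

variable {G : Type} [Group G] {q : ℕ}

/-! ### ℓ¹ norm of functions and convolution -/

/-- ℓ¹ norm of a function on `G`. -/
noncomputable def l1 (f : G → ℂ) : ℝ := ∑' x, ‖f x‖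

omit [Group G] in
theorem l1_nonneg (f : G → ℂ) : 0 ≤ l1 f := tsum_nonneg fun _ => norm_nonneg _

theorem summable_pair {f g : G → ℂ} (hf : Summable fun x => ‖f x‖) (hg : Summable fun x => ‖g x‖) :
    Summable fun p : G × G => ‖f p.2‖ * ‖g (p.2⁻¹ * p.1)‖ := by
  let φ : G × G ≃ G × G :=
    { toFun := fun p => (p.2, p.2⁻¹ * p.1), invFun := fun p => (p.1 * p.2, p.1),
      left_inv := fun p => by simp, right_inv := fun p => by simp }
  have h := hf.mul_of_nonneg hg (fun _ => norm_nonneg _) (fun _ => norm_nonneg _)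
  exact (φ.summable_iff.2 h)

theorem tsum_pair {f g : G → ℂ} (hf : Summable fun x => ‖f x‖) (hg : Summable fun x => ‖g x‖) :
    ∑' p : G × G, ‖f p.2‖ * ‖g (p.2⁻¹ * p.1)‖ = l1 f * l1 g := by
  let φ : G × G ≃ G × G :=
    { toFun := fun p => (p.2, p.2⁻¹ * p.1), invFun := fun p => (p.1 * p.2, p.1),
      left_inv := fun p => by simp, right_inv := fun p => by simp }
  have h := hf.mul_of_nonneg hg (fun _ => norm_nonneg _) (fun _ => norm_nonneg _)
  rw [l1, l1, hf.tsum_mul_tsum hg h]
  exact φ.tsum_eq (fun z : G × G => ‖f z.1‖ * ‖g z.2‖)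

theorem summable_conv_term {f g : G → ℂ} (hf : Summable fun x => ‖f x‖)
    (hg : Summable fun x => ‖g x‖) (x : G) : Summable fun y => ‖f y * g (y⁻¹ * x)‖ := by
  simpa only [norm_mul] using (summable_pair hf hg).prod_factor x

theorem norm_conv_le {f g : G → ℂ} (hf : Summable fun x => ‖f x‖)
    (hg : Summable fun x => ‖g x‖) (x : G) :
    ‖conv f g x‖ ≤ ∑' y, ‖f y‖ * ‖g (y⁻¹ * x)‖ := by
  simpa only [norm_mul, conv] using norm_tsum_le_tsum_norm (summable_conv_term hf hg x)

theorem summable_conv {f g : G → ℂ} (hf : Summable fun x => ‖f x‖)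
    (hg : Summable fun x => ‖g x‖) : Summable fun x => ‖conv f g x‖ :=
  Summable.of_nonneg_of_le (fun _ => norm_nonneg _) (norm_conv_le hf hg)
    (summable_pair hf hg).prod

theorem l1_conv_le {f g : G → ℂ} (hf : Summable fun x => ‖f x‖)
    (hg : Summable fun x => ‖g x‖) : l1 (conv f g) ≤ l1 f * l1 g := by
  rw [← tsum_pair hf hg, (summable_pair hf hg).tsum_prod]
  exact (summable_conv hf hg).tsum_le_tsum (norm_conv_le hf hg) (summable_pair hf hg).prod

omit [Group G] in
theorem summable_add {f g : G → ℂ} (hf : Summable fun x => ‖f x‖)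
    (hg : Summable fun x => ‖g x‖) : Summable fun x => ‖f x + g x‖ :=
  Summable.of_nonneg_of_le (fun _ => norm_nonneg _) (fun _ => norm_add_le _ _) (hf.add hg)

omit [Group G] in
theorem l1_add_le {f g : G → ℂ} (hf : Summable fun x => ‖f x‖)
    (hg : Summable fun x => ‖g x‖) : l1 (fun x => f x + g x) ≤ l1 f + l1 g := by
  rw [l1, l1, l1, ← hf.tsum_add hg]
  exact (summable_add hf hg).tsum_le_tsum (fun _ => norm_add_le _ _) (hf.add hg)

omit [Group G] in
theorem summable_sum' {ι : Type} (s : Finset ι) {f : ι → G → ℂ}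
    (hf : ∀ i, Summable fun x => ‖f i x‖) : Summable fun x => ‖∑ i ∈ s, f i x‖ :=
  Summable.of_nonneg_of_le (fun _ => norm_nonneg _) (fun _ => norm_sum_le _ _)
    (summable_sum fun i _ => hf i)

omit [Group G] in
theorem l1_sum_le {ι : Type} (s : Finset ι) {f : ι → G → ℂ}
    (hf : ∀ i, Summable fun x => ‖f i x‖) :
    l1 (fun x => ∑ i ∈ s, f i x) ≤ ∑ i ∈ s, l1 (f i) := by
  simp only [l1]
  rw [← Summable.tsum_finsetSum fun i _ => hf i]
  exact (summable_sum' s hf).tsum_le_tsum (fun _ => norm_sum_le _ _)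
    (summable_sum fun i _ => hf i)

theorem conv_add_left {f f' g : G → ℂ} (hf : Summable fun x => ‖f x‖)
    (hf' : Summable fun x => ‖f' x‖) (hg : Summable fun x => ‖g x‖) (x : G) :
    conv (fun y => f y + f' y) g x = conv f g x + conv f' g x := by
  simp only [conv, add_mul]
  exact (summable_conv_term hf hg x).of_norm.tsum_add (summable_conv_term hf' hg x).of_norm

theorem conv_add_right {f g g' : G → ℂ} (hf : Summable fun x => ‖f x‖)
    (hg : Summable fun x => ‖g x‖) (hg' : Summable fun x => ‖g' x‖) (x : G) :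
    conv f (fun y => g y + g' y) x = conv f g x + conv f g' x := by
  simp only [conv, mul_add]
  exact (summable_conv_term hf hg x).of_norm.tsum_add (summable_conv_term hf hg' x).of_norm

/-! ### The group algebra -/

/-- ℓ¹ norm on the group algebra. -/
noncomputable def nr (u : MonoidAlgebra ℂ G) : ℝ := ∑ x ∈ u.coeff.support, ‖u.coeff x‖

theorem summable_coeff (u : MonoidAlgebra ℂ G) : Summable fun x => ‖u.coeff x‖ :=
  summable_of_ne_finset_zero (s := u.coeff.support) fun x hx => by simpa using hx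

theorem nr_eq (u : MonoidAlgebra ℂ G) : nr u = l1 u.coeff := by
  rw [nr, l1, tsum_eq_sum (s := u.coeff.support)]
  intro x hx
  simpa using hx

theorem coeff_mul_eq (u v : MonoidAlgebra ℂ G) (x : G) :
    (u * v).coeff x = conv u.coeff v.coeff x := by
  rw [MonoidAlgebra.coeff_mul_apply_left, conv, tsum_eq_sum (s := u.coeff.support)]
  · rfl
  · intro y hy
    rw [Finsupp.notMem_support_iff.1 hy, zero_mul]

theorem nr_nonneg (u : MonoidAlgebra ℂ G) : 0 ≤ nr u :=
  Finset.sum_nonneg fun _ _ => norm_nonneg _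

theorem nr_mul_le (u v : MonoidAlgebra ℂ G) : nr (u * v) ≤ nr u * nr v := by
  rw [nr_eq, nr_eq, nr_eq]
  have : ((u * v).coeff : G → ℂ) = conv u.coeff v.coeff := funext (coeff_mul_eq u v)
  rw [this]
  exact l1_conv_le (summable_coeff u) (summable_coeff v)

theorem nr_add_le (u v : MonoidAlgebra ℂ G) : nr (u + v) ≤ nr u + nr v := by
  rw [nr_eq, nr_eq, nr_eq]
  exact l1_add_le (summable_coeff u) (summable_coeff v)

theorem nr_smul (c : ℂ) (u : MonoidAlgebra ℂ G) : nr (c • u) = ‖c‖ * nr u := by
  rw [nr_eq, nr_eq, l1, l1, ← tsum_mul_left]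
  refine tsum_congr fun x => ?_
  rw [MonoidAlgebra.coeff_smul_apply, smul_eq_mul, norm_mul]

theorem nr_zero : nr (0 : MonoidAlgebra ℂ G) = 0 := by simp [nr]

theorem nr_sum_le {ι : Type} (s : Finset ι) (f : ι → MonoidAlgebra ℂ G) :
    nr (∑ i ∈ s, f i) ≤ ∑ i ∈ s, nr (f i) :=
  Finset.le_sum_of_subadditive nr nr_zero.le nr_add_le s f

/-- The class trace on the group algebra: the sum of the coefficients over `C`. -/
noncomputable def ctr (C : Set G) : MonoidAlgebra ℂ G →ₗ[ℂ] ℂ where
  toFun u := ∑' g : C, u.coeff g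
  map_add' u v := by
    simp only [MonoidAlgebra.coeff_add, Finsupp.add_apply]
    exact ((summable_coeff u).of_norm.subtype C).tsum_add ((summable_coeff v).of_norm.subtype C)
  map_smul' c u := by
    simp only [MonoidAlgebra.coeff_smul_apply, smul_eq_mul, RingHom.id_apply]
    exact tsum_mul_left

theorem ctr_apply (C : Set G) (u : MonoidAlgebra ℂ G) : ctr C u = ∑' g : C, u.coeff g := rfl

open Classical in
theorem ctr_single (C : Set G) (x : G) (c : ℂ) :
    ctr C (MonoidAlgebra.single x c) = if x ∈ C then c else 0 := by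
  rw [ctr_apply, tsum_subtype C (fun g => (MonoidAlgebra.single x c).coeff g),
    tsum_eq_single x]
  · simp [Set.indicator_apply]
  · intro y hy
    simp [Set.indicator_apply, Finsupp.single_apply, hy.symm]

omit [Group G] in
theorem norm_tsum_sub_le (C : Set G) {f : G → ℂ} (hf : Summable fun x => ‖f x‖) :
    ‖∑' g : C, f g‖ ≤ l1 f :=
  (norm_tsum_le_tsum_norm (hf.subtype C)).trans
    (Summable.tsum_subtype_le _ _ (fun _ => norm_nonneg _) hf)

theorem norm_ctr_le (C : Set G) (u : MonoidAlgebra ℂ G) : ‖ctr C u‖ ≤ nr u := by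
  rw [nr_eq]; exact norm_tsum_sub_le C (summable_coeff u)

theorem ctr_comm (C : ConjClasses G) (u v : MonoidAlgebra ℂ G) :
    ctr C.carrier (u * v) = ctr C.carrier (v * u) := by
  classical
  induction u using MonoidAlgebra.induction_linear with
  | zero => simp
  | add u u' hu hu' => simp only [add_mul, mul_add, map_add, hu, hu']
  | single x c =>
    induction v using MonoidAlgebra.induction_linear with
    | zero => simp
    | add v v' hv hv' => simp only [add_mul, mul_add, map_add, hv, hv']
    | single y d =>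
      rw [MonoidAlgebra.single_mul_single, MonoidAlgebra.single_mul_single, ctr_single,
        ctr_single, mul_comm c d]
      have : ConjClasses.mk (x * y) = ConjClasses.mk (y * x) := by
        rw [ConjClasses.mk_eq_mk_iff_isConj, isConj_iff]
        exact ⟨y, by group⟩
      simp only [ConjClasses.mem_carrier_iff_mk_eq, this]

/-! ### Matrices -/

/-- Matrices over the group algebra. -/
abbrev Mat (G : Type) [Group G] (q : ℕ) := Matrix (Fin q) (Fin q) (MonoidAlgebra ℂ G)

/-- Sum of the absolute values of all coefficients of all entries. -/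
noncomputable def nrm (a : Mat G q) : ℝ := ∑ i, ∑ j, nr (a i j)

/-- The same norm for a matrix of functions. -/
noncomputable def nrmE (e : Fin q → Fin q → G → ℂ) : ℝ := ∑ i, ∑ j, l1 (e i j)

/-- The class trace of a matrix over the group algebra. -/
noncomputable def trC (C : Set G) : Mat G q →ₗ[ℂ] ℂ :=
  (ctr C).comp (Matrix.traceLinearMap (Fin q) ℂ (MonoidAlgebra ℂ G))

theorem trC_apply (C : Set G) (a : Mat G q) : trC C a = ∑ i, ctr C (a i i) := by
  simp [trC, Matrix.trace]

theorem nrm_nonneg (a : Mat G q) : 0 ≤ nrm a :=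
  Finset.sum_nonneg fun _ _ => Finset.sum_nonneg fun _ _ => nr_nonneg _

theorem nrm_add_le (a b : Mat G q) : nrm (a + b) ≤ nrm a + nrm b := by
  simp only [nrm, ← Finset.sum_add_distrib]
  exact Finset.sum_le_sum fun i _ => Finset.sum_le_sum fun j _ => nr_add_le _ _

theorem nrm_smul (c : ℂ) (a : Mat G q) : nrm (c • a) = ‖c‖ * nrm a := by
  simp only [nrm, Finset.mul_sum, Matrix.smul_apply, nr_smul]

theorem nrm_neg (a : Mat G q) : nrm (-a) = nrm a := by
  have := nrm_smul (-1 : ℂ) a
  simpa using this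

theorem nrm_sub_le (a b : Mat G q) : nrm (a - b) ≤ nrm a + nrm b := by
  rw [sub_eq_add_neg, ← nrm_neg b]; exact nrm_add_le _ _

theorem sum_mul_le (A B : Fin q → Fin q → ℝ) (hA : ∀ i j, 0 ≤ A i j) (hB : ∀ i j, 0 ≤ B i j) :
    ∑ i, ∑ j, ∑ k, A i k * B k j ≤ (∑ i, ∑ j, A i j) * ∑ i, ∑ j, B i j := by
  calc ∑ i, ∑ j, ∑ k, A i k * B k j = ∑ i, ∑ k, A i k * ∑ j, B k j := by
        refine Finset.sum_congr rfl fun i _ => ?_
        rw [Finset.sum_comm]
        simp only [Finset.mul_sum]
    _ ≤ ∑ i, ∑ k, A i k * ∑ i, ∑ j, B i j := by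
        refine Finset.sum_le_sum fun i _ => Finset.sum_le_sum fun k _ =>
          mul_le_mul_of_nonneg_left ?_ (hA _ _)
        exact Finset.single_le_sum (f := fun i => ∑ j, B i j)
          (fun i _ => Finset.sum_nonneg fun j _ => hB i j) (Finset.mem_univ k)
    _ = _ := by simp only [Finset.sum_mul]

theorem nrm_mul_le (a b : Mat G q) : nrm (a * b) ≤ nrm a * nrm b := by
  refine le_trans ?_ (sum_mul_le (fun i j => nr (a i j)) (fun i j => nr (b i j))
    (fun _ _ => nr_nonneg _) (fun _ _ => nr_nonneg _))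
  refine Finset.sum_le_sum fun i _ => Finset.sum_le_sum fun j _ => ?_
  rw [Matrix.mul_apply]
  exact (nr_sum_le _ _).trans (Finset.sum_le_sum fun k _ => nr_mul_le _ _)

theorem nrm_pow_mul_le (a b : Mat G q) (n : ℕ) : nrm (a ^ n * b) ≤ nrm a ^ n * nrm b := by
  induction n with
  | zero => simp
  | succ n ih =>
    rw [pow_succ', mul_assoc, pow_succ', mul_assoc]
    exact (nrm_mul_le _ _).trans (mul_le_mul_of_nonneg_left ih (nrm_nonneg _))

theorem norm_trC_le (C : Set G) (a : Mat G q) : ‖trC C a‖ ≤ nrm a := by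
  rw [trC_apply]
  refine (norm_sum_le _ _).trans (Finset.sum_le_sum fun i _ => (norm_ctr_le _ _).trans ?_)
  exact Finset.single_le_sum (f := fun j => nr (a i j)) (fun j _ => nr_nonneg _)
    (Finset.mem_univ i)

theorem trC_comm (C : ConjClasses G) (a b : Mat G q) :
    trC C.carrier (a * b) = trC C.carrier (b * a) := by
  simp only [trC_apply, Matrix.mul_apply, map_sum]
  rw [Finset.sum_comm]
  exact Finset.sum_congr rfl fun i _ => Finset.sum_congr rfl fun k _ => ctr_comm _ _ _

/-! ### Derivative of the trace of a polynomial along a segment -/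

section Deriv

variable {B : Type} [Ring B] [Algebra ℂ B]

/-- Formal derivative of `x ^ n` in the direction `h`. -/
def dpow (x h : B) : ℕ → B
  | 0 => 0
  | n + 1 => dpow x h n * x + x ^ n * h

theorem hasDerivAt_pow (a h : B) (n : ℕ) (t : ℝ) (L : B →ₗ[ℂ] ℂ) :
    HasDerivAt (fun s : ℝ => L ((a + (s : ℂ) • h) ^ n)) (L (dpow (a + (t : ℂ) • h) h n)) t := by
  induction n generalizing L with
  | zero => simpa [dpow] using hasDerivAt_const t (L 1)
  | succ n ih =>
    have h1 := ih (L.comp (LinearMap.mulRight ℂ a))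
    have h2 := ih (L.comp (LinearMap.mulRight ℂ h))
    have h3 : HasDerivAt (fun s : ℝ => (s : ℂ)) 1 t := Complex.ofRealCLM.hasDerivAt
    have h4 := h1.add (h3.mul h2)
    simp only [LinearMap.comp_apply, LinearMap.mulRight_apply] at h4
    refine (h4.congr_of_eventuallyEq (Eventually.of_forall fun s => ?_)).congr_deriv ?_
    · simp only [pow_succ, mul_add, mul_smul_comm, map_add, map_smul, smul_eq_mul, Pi.add_apply,
        Pi.mul_apply]
    · simp only [dpow, mul_add, mul_smul_comm, map_add, map_smul, smul_eq_mul]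
      ring

theorem trace_dpow (τ : B →ₗ[ℂ] ℂ) (hτ : ∀ x y, τ (x * y) = τ (y * x)) (x h : B) (n k : ℕ) :
    τ (dpow x h (n + 1) * x ^ k) = (n + 1 : ℂ) * τ (x ^ (n + k) * h) := by
  induction n generalizing k with
  | zero => simp [dpow, hτ h]
  | succ n ih =>
    rw [dpow, add_mul, map_add, mul_assoc, ← pow_succ', ih, mul_assoc, hτ (x ^ (n + 1)),
      mul_assoc, ← pow_add, hτ h]
    have : k + (n + 1) = n + 1 + k := by ring
    have h2 : n + (k + 1) = n + 1 + k := by ring
    rw [this, h2]
    push_cast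
    ring

theorem hasDerivAt_aeval (τ : B →ₗ[ℂ] ℂ) (hτ : ∀ x y, τ (x * y) = τ (y * x)) (a h : B)
    (p : ℂ[X]) (t : ℝ) :
    HasDerivAt (fun s : ℝ => τ (aeval (a + (s : ℂ) • h) p))
      (τ (aeval (a + (t : ℂ) • h) (derivative p) * h)) t := by
  induction p using Polynomial.induction_on' with
  | add p r hp hr =>
    refine ((hp.add hr).congr_of_eventuallyEq (Eventually.of_forall fun s => ?_)).congr_deriv ?_
    · simp only [map_add, Pi.add_apply]
    · simp only [map_add, add_mul]
  | monomial n c =>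
    have h1 := (hasDerivAt_pow a h n t τ).const_mul c
    refine (h1.congr_of_eventuallyEq (Eventually.of_forall fun s => ?_)).congr_deriv ?_
    · simp [aeval_monomial, ← Algebra.smul_def]
    · rw [derivative_monomial, aeval_monomial, ← Algebra.smul_def, smul_mul_assoc, map_smul,
        smul_eq_mul]
      cases n with
      | zero => simp [dpow]
      | succ n =>
        have := trace_dpow τ hτ (a + (t : ℂ) • h) h n 0
        simp only [pow_zero, mul_one, add_zero] at this
        rw [this]
        push_cast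
        ring

end Deriv

/-- Two almost idempotents close to each other have nearly the same `trC (p a)`. -/
theorem trC_aeval_sub_le (C : ConjClasses G) (a b : Mat G q) (p : ℂ[X]) (c : ℂ) (N : ℕ) (η : ℝ)
    (hp : derivative p = Polynomial.C c * (X ^ 2 - X) ^ N)
    (ha : nrm (a * a - a) + nrm (b - a) ^ 2 ≤ η) (hb : nrm (b * b - b) + nrm (b - a) ^ 2 ≤ η) :
    ‖trC C.carrier (aeval b p) - trC C.carrier (aeval a p)‖ ≤ ‖c‖ * η ^ N * nrm (b - a) := by
  have key := norm_image_sub_le_of_norm_deriv_le_segment_01'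
    (f := fun s : ℝ => trC C.carrier (aeval (a + (s : ℂ) • (b - a)) p))
    (C := ‖c‖ * η ^ N * nrm (b - a))
    (fun t _ => (hasDerivAt_aeval (trC C.carrier) (trC_comm C) a (b - a) p t).hasDerivWithinAt) ?_
  · simpa using key
  intro t ht
  set x := a + (t : ℂ) • (b - a) with hx
  have hid : x * x - x = ((1 - t : ℝ) : ℂ) • (a * a - a) + (t : ℂ) • (b * b - b)
      - ((t * (1 - t) : ℝ) : ℂ) • ((b - a) * (b - a)) := by
    simp only [hx, add_mul, mul_add, smul_mul_assoc, mul_smul_comm, sub_mul, mul_sub, smul_sub,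
      smul_add, smul_smul]
    push_cast
    module
  have hn : nrm (x * x - x) ≤ η := by
    have t0 := ht.1
    have t1 : 0 ≤ 1 - t := by linarith [ht.2]
    rw [hid]
    refine (nrm_sub_le _ _).trans ?_
    refine (add_le_add (nrm_add_le _ _) le_rfl).trans ?_
    rw [nrm_smul, nrm_smul, nrm_smul, Complex.norm_real, Complex.norm_real, Complex.norm_real,
      Real.norm_of_nonneg t1, Real.norm_of_nonneg t0, Real.norm_of_nonneg (mul_nonneg t0 t1)]
    have h1 := nrm_mul_le (b - a) (b - a)
    have h2 := nrm_nonneg ((b - a) * (b - a))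
    have h3 : t * (1 - t) ≤ 1 := by nlinarith
    have h4 : t * (1 - t) * nrm ((b - a) * (b - a)) ≤ nrm (b - a) ^ 2 := by nlinarith
    nlinarith
  have hev : aeval x (derivative p) = c • (x * x - x) ^ N := by
    rw [hp]; simp [Algebra.smul_def, sq]
  rw [hev, smul_mul_assoc, map_smul, smul_eq_mul, norm_mul, mul_assoc]
  refine mul_le_mul_of_nonneg_left ((norm_trC_le _ _).trans ((nrm_pow_mul_le _ _ _).trans ?_))
    (norm_nonneg _)
  exact mul_le_mul_of_nonneg_right (pow_le_pow_left₀ (nrm_nonneg _) hn _) (nrm_nonneg _)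

/-! ### Truncation -/

open Classical in
/-- Truncation of a function to a finite set. -/
noncomputable def cut (S : Finset G) (f : G → ℂ) : MonoidAlgebra ℂ G :=
  MonoidAlgebra.ofCoeff (Finsupp.onFinset S (fun x => if x ∈ S then f x else 0)
    (fun x hx => by by_contra h; simp [h] at hx))

open Classical in
/-- The part of a function outside a finite set. -/
noncomputable def tail (S : Finset G) (f : G → ℂ) : G → ℂ := fun x => if x ∈ S then 0 else f x

theorem cut_add_tail (S : Finset G) (f : G → ℂ) (x : G) :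
    (cut S f).coeff x + tail S f x = f x := by
  simp only [cut, tail, Finsupp.onFinset_apply]
  split_ifs <;> simp

theorem norm_cut_le (S : Finset G) (f : G → ℂ) (x : G) : ‖(cut S f).coeff x‖ ≤ ‖f x‖ := by
  simp only [cut, Finsupp.onFinset_apply]
  split_ifs <;> simp

theorem norm_tail_le (S : Finset G) (f : G → ℂ) (x : G) : ‖tail S f x‖ ≤ ‖f x‖ := by
  simp only [tail]
  split_ifs <;> simp

theorem summable_tail (S : Finset G) {f : G → ℂ} (hf : Summable fun x => ‖f x‖) :
    Summable fun x => ‖tail S f x‖ :=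
  Summable.of_nonneg_of_le (fun _ => norm_nonneg _) (norm_tail_le S f) hf

theorem tendsto_tail (f : G → ℂ) : Tendsto (fun S : Finset G => l1 (tail S f)) atTop (𝓝 0) := by
  classical
  refine (tendsto_tsum_compl_atTop_zero fun x => ‖f x‖).congr fun S => ?_
  rw [l1]
  refine (tsum_subtype {x | x ∉ S} fun x => ‖f x‖).trans (tsum_congr fun x => ?_)
  simp only [Set.indicator_apply, Set.mem_ofPred_eq, tail]
  split_ifs <;> simp_all

/-- Truncation of a matrix. -/
noncomputable def cutM (S : Finset G) (e : Fin q → Fin q → G → ℂ) : Mat G q :=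
  Matrix.of fun i j => cut S (e i j)

/-- Norm of the tail of a matrix. -/
noncomputable def tl (S : Finset G) (e : Fin q → Fin q → G → ℂ) : ℝ :=
  nrmE fun i j => tail S (e i j)

theorem nrmE_nonneg (e : Fin q → Fin q → G → ℂ) : 0 ≤ nrmE e :=
  Finset.sum_nonneg fun _ _ => Finset.sum_nonneg fun _ _ => l1_nonneg _

theorem tl_nonneg (S : Finset G) (e : Fin q → Fin q → G → ℂ) : 0 ≤ tl S e := nrmE_nonneg _

theorem tendsto_tl (e : Fin q → Fin q → G → ℂ) :
    Tendsto (fun S : Finset G => tl S e) atTop (𝓝 0) := by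
  have : Tendsto (fun S : Finset G => tl S e) atTop (𝓝 (∑ _i : Fin q, ∑ _j : Fin q, (0 : ℝ))) :=
    tendsto_finsetSum _ fun i _ => tendsto_finsetSum _ fun j _ => tendsto_tail (e i j)
  simpa using this

theorem nrm_cutM_le (S : Finset G) {e : Fin q → Fin q → G → ℂ} (he : IsL1IdempotentMatrix e) :
    nrm (cutM S e) ≤ nrmE e := by
  refine Finset.sum_le_sum fun i _ => Finset.sum_le_sum fun j _ => ?_
  rw [nr_eq]
  exact (summable_coeff _).tsum_le_tsum (norm_cut_le S _) (he.1 i j)

theorem nrm_cutM_sub_le (S T : Finset G) {e : Fin q → Fin q → G → ℂ}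
    (he : IsL1IdempotentMatrix e) : nrm (cutM T e - cutM S e) ≤ tl S e + tl T e := by
  simp only [tl, nrmE, nrm, ← Finset.sum_add_distrib]
  refine Finset.sum_le_sum fun i _ => Finset.sum_le_sum fun j _ => ?_
  rw [nr_eq]
  have h : ((cutM T e - cutM S e) i j).coeff = fun x => tail S (e i j) x + -tail T (e i j) x := by
    funext x
    have h1 := cut_add_tail S (e i j) x
    have h2 := cut_add_tail T (e i j) x
    simp only [cutM, Matrix.sub_apply, Matrix.of_apply, MonoidAlgebra.coeff_sub,
      Finsupp.coe_sub, Pi.sub_apply]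
    linear_combination h2 - h1
  rw [h]
  refine (l1_add_le (summable_tail S (he.1 i j))
    (by simpa using summable_tail T (he.1 i j))).trans ?_
  simp [l1]

theorem nrm_cutM_defect (S : Finset G) {e : Fin q → Fin q → G → ℂ}
    (he : IsL1IdempotentMatrix e) :
    nrm (cutM S e * cutM S e - cutM S e) ≤ (2 * nrmE e + 1) * tl S e := by
  have hs : ∀ i j, Summable fun x => ‖tail S (e i j) x‖ := fun i j => summable_tail S (he.1 i j)
  have hc : ∀ i j, Summable fun x => ‖(cut S (e i j)).coeff x‖ := fun i j => summable_coeff _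
  have hee : ∀ i j, e i j = fun x => (cut S (e i j)).coeff x + tail S (e i j) x :=
    fun i j => funext fun x => (cut_add_tail S _ x).symm
  have h : ∀ i j, ((cutM S e * cutM S e - cutM S e) i j).coeff = fun x =>
      tail S (e i j) x + -∑ k, (conv (cut S (e i k)).coeff (tail S (e k j)) x
        + conv (tail S (e i k)) (e k j) x) := by
    intro i j
    funext x
    have h1 := cut_add_tail S (e i j) x
    have h2 := he.2 i j x
    have h3 : ∀ k, conv (e i k) (e k j) x = conv (cut S (e i k)).coeff (cut S (e k j)).coeff x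
        + (conv (cut S (e i k)).coeff (tail S (e k j)) x + conv (tail S (e i k)) (e k j) x) := by
      intro k
      conv_lhs => rw [hee i k]
      rw [conv_add_left (hc i k) (hs i k) (he.1 k j), ← add_assoc]
      congr 1
      conv_lhs => rw [hee k j]
      exact conv_add_right (hc i k) (hc k j) (hs k j) x
    simp only [h3, Finset.sum_add_distrib] at h2
    simp only [cutM, Matrix.sub_apply, Matrix.mul_apply, Matrix.of_apply, MonoidAlgebra.coeff_sub,
      Finsupp.coe_sub, Pi.sub_apply, MonoidAlgebra.coeff_sum, Finsupp.coe_finsetSum,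
      Finset.sum_apply, coeff_mul_eq, Finset.sum_add_distrib]
    linear_combination h2 - h1
  have h' : ∀ i j, nr ((cutM S e * cutM S e - cutM S e) i j) ≤ l1 (tail S (e i j)) +
      (∑ k, l1 (e i k) * l1 (tail S (e k j)) + ∑ k, l1 (tail S (e i k)) * l1 (e k j)) := by
    intro i j
    have hk : ∀ k, Summable fun x => ‖conv (cut S (e i k)).coeff (tail S (e k j)) x
        + conv (tail S (e i k)) (e k j) x‖ := fun k =>
      summable_add (summable_conv (hc i k) (hs k j)) (summable_conv (hs i k) (he.1 k j))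
    rw [nr_eq, h]
    refine (l1_add_le (hs i j) (by simpa only [norm_neg] using summable_sum' _ hk)).trans ?_
    refine add_le_add le_rfl ?_
    have := l1_sum_le Finset.univ hk
    simp only [l1, norm_neg] at this ⊢
    refine this.trans ?_
    rw [← Finset.sum_add_distrib]
    refine Finset.sum_le_sum fun k _ => ?_
    refine (l1_add_le (summable_conv (hc i k) (hs k j))
      (summable_conv (hs i k) (he.1 k j))).trans (add_le_add ?_ (l1_conv_le (hs i k) (he.1 k j)))
    refine (l1_conv_le (hc i k) (hs k j)).trans (mul_le_mul_of_nonneg_right ?_ (l1_nonneg _))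
    exact (hc i k).tsum_le_tsum (norm_cut_le S _) (he.1 i k)
  refine (Finset.sum_le_sum fun i _ => Finset.sum_le_sum fun j _ => h' i j).trans ?_
  simp only [Finset.sum_add_distrib]
  have a1 := sum_mul_le (fun i j => l1 (e i j)) (fun i j => l1 (tail S (e i j)))
    (fun _ _ => l1_nonneg _) (fun _ _ => l1_nonneg _)
  have a2 := sum_mul_le (fun i j => l1 (tail S (e i j))) (fun i j => l1 (e i j))
    (fun _ _ => l1_nonneg _) (fun _ _ => l1_nonneg _)
  simp only [tl, nrmE]
  nlinarith

theorem trC_cutM (C : Set G) (S : Finset G) {e : Fin q → Fin q → G → ℂ}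
    (he : IsL1IdempotentMatrix e) : ‖classTrace e C - trC C (cutM S e)‖ ≤ tl S e := by
  have hsw : classTrace e C = ∑ i, ∑' g : C, e i i g :=
    Summable.tsum_finsetSum (f := fun i (g : C) => e i i g)
      (fun i _ => (he.1 i i).of_norm.subtype C)
  rw [trC_apply, hsw, ← Finset.sum_sub_distrib]
  refine (norm_sum_le _ _).trans (Finset.sum_le_sum fun i _ => ?_)
  refine le_trans ?_ (Finset.single_le_sum (f := fun j => l1 (tail S (e i j)))
    (fun j _ => l1_nonneg _) (Finset.mem_univ i))
  have hsub : ∑' g : C, (e i i g - (cutM S e i i).coeff g) =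
      ∑' g : C, e i i g - ∑' g : C, (cutM S e i i).coeff g :=
    Summable.tsum_sub (f := fun g : C => e i i g)
      (g := fun g : C => (cutM S e i i).coeff g) ((he.1 i i).of_norm.subtype C)
      ((summable_coeff _).of_norm.subtype C)
  rw [ctr_apply, ← hsub]
  refine le_trans (le_of_eq ?_) (norm_tsum_sub_le C (summable_tail S (he.1 i i)))
  congr 1
  refine tsum_congr fun x => ?_
  have := cut_add_tail S (e i i) x
  simp only [cutM, Matrix.of_apply, Function.comp]
  linear_combination -this

/-- A polynomial with `p 0 = 0`, `p 1 = 1` changes an almost idempotent very little. -/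
theorem exists_aeval_sub (p : ℂ[X]) (h0 : p.eval 0 = 0) (h1 : p.eval 1 = 1) (A : ℝ) :
    ∃ K : ℝ, 0 ≤ K ∧ ∀ a : Mat G q, nrm a ≤ A → nrm (aeval a p - a) ≤ K * nrm (a * a - a) := by
  obtain ⟨s, hs⟩ : (X * (X - Polynomial.C 1) : ℂ[X]) ∣ p - X := by
    refine IsCoprime.mul_dvd ?_ ?_ ?_
    · exact ⟨1, -1, by simp⟩
    · rw [X_dvd_iff, coeff_zero_eq_eval_zero]; simp [h0]
    · rw [dvd_iff_isRoot]; simp [h1]
  have key : ∀ s : ℂ[X], ∃ K : ℝ, 0 ≤ K ∧ ∀ a b : Mat G q, nrm a ≤ A →
      nrm (aeval a s * b) ≤ K * nrm b := by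
    intro s
    induction s using Polynomial.induction_on' with
    | add s r hs hr =>
      obtain ⟨K, hK, h⟩ := hs
      obtain ⟨K', hK', h'⟩ := hr
      refine ⟨K + K', add_nonneg hK hK', fun a b ha => ?_⟩
      rw [map_add, add_mul, add_mul]
      exact (nrm_add_le _ _).trans (add_le_add (h a b ha) (h' a b ha))
    | monomial n c =>
      refine ⟨‖c‖ * |A| ^ n, by positivity, fun a b ha => ?_⟩
      rw [aeval_monomial, ← Algebra.smul_def, smul_mul_assoc, nrm_smul, mul_assoc]
      refine mul_le_mul_of_nonneg_left ((nrm_pow_mul_le _ _ _).trans ?_) (norm_nonneg _)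
      exact mul_le_mul_of_nonneg_right
        (pow_le_pow_left₀ (nrm_nonneg _) (ha.trans (le_abs_self A)) _) (nrm_nonneg _)
  obtain ⟨K, hK, h⟩ := key s
  refine ⟨K, hK, fun a ha => ?_⟩
  have : aeval a p - a = aeval a s * (a * a - a) := by
    have h2 : p - X = s * (X * X - X) := by rw [hs]; simp only [map_one]; ring
    have h3 := congrArg (aeval a) h2
    simpa using h3
  rw [this]
  exact h a _ ha

/-- Quantitative form: for the truncation `a = cutM S e` with small tail. -/
theorem trC_aeval_cutM (C : ConjClasses G) {e : Fin q → Fin q → G → ℂ}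
    (he : IsL1IdempotentMatrix e) (S : Finset G) (η : ℝ) (hS : 0 < tl S e → tl S e ≤ 1)
    (hη : (2 * nrmE e + 5) * tl S e < η)
    (p : ℂ[X]) (c : ℂ) (N : ℕ) (h0 : p.eval 0 = 0) (h1 : p.eval 1 = 1)
    (hp : derivative p = Polynomial.C c * (X ^ 2 - X) ^ N) :
    ‖trC C.carrier (aeval (cutM S e) p) - classTrace e C.carrier‖ ≤ 2 * (‖c‖ * η ^ N) := by
  obtain ⟨K, hK, hKp⟩ := exists_aeval_sub (G := G) (q := q) p h0 h1 (nrmE e)
  have hA := nrmE_nonneg e
  have ht := tl_nonneg S e
  have ht1 : tl S e ≤ 1 := by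
    rcases ht.eq_or_lt with h | h
    · rw [← h]; exact zero_le_one
    · exact hS h
  have hη0 : 0 < η := lt_of_le_of_lt (by positivity) hη
  -- compare with finer truncations `T`
  have hlim : Tendsto (fun T : Finset G => 2 * (‖c‖ * η ^ N) +
      (K * ((2 * nrmE e + 1) * tl T e) + tl T e)) atTop
      (𝓝 (2 * (‖c‖ * η ^ N) + (K * ((2 * nrmE e + 1) * 0) + 0))) :=
    tendsto_const_nhds.add ((((tendsto_tl e).const_mul _).const_mul _).add (tendsto_tl e))
  simp only [mul_zero, add_zero] at hlim
  refine ge_of_tendsto hlim ?_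
  have hδ : 0 < min 1 ((η - (2 * nrmE e + 5) * tl S e) / (2 * nrmE e + 5)) :=
    lt_min one_pos (div_pos (by linarith) (by linarith))
  filter_upwards [(tendsto_tl e).eventually (gt_mem_nhds hδ)] with T hT
  have hT0 := tl_nonneg T e
  have hT1 : tl T e ≤ 1 := hT.le.trans (min_le_left _ _)
  have hT2 : (2 * nrmE e + 5) * tl T e ≤ η - (2 * nrmE e + 5) * tl S e := by
    have := hT.le.trans (min_le_right _ _)
    rwa [le_div_iff₀ (by linarith), mul_comm] at this
  have hd := nrm_cutM_sub_le S T he
  have hd0 := nrm_nonneg (cutM T e - cutM S e)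
  have hd2 : nrm (cutM T e - cutM S e) ^ 2 ≤ 2 * (tl S e + tl T e) := by nlinarith
  have hS' := nrm_cutM_defect S he
  have hT' := nrm_cutM_defect T he
  have m1 := trC_aeval_sub_le C (cutM S e) (cutM T e) p c N η hp (by nlinarith) (by nlinarith)
  have m2 := (norm_trC_le C.carrier _).trans (hKp (cutM T e) (nrm_cutM_le T he))
  have m3 := trC_cutM C.carrier T he
  rw [map_sub] at m2
  have e1 : trC C.carrier (aeval (cutM S e) p) - classTrace e C.carrier =
      -(trC C.carrier (aeval (cutM T e) p) - trC C.carrier (aeval (cutM S e) p))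
      + ((trC C.carrier (aeval (cutM T e) p) - trC C.carrier (cutM T e))
      + -(classTrace e C.carrier - trC C.carrier (cutM T e))) := by ring
  rw [e1]
  refine (norm_add_le _ _).trans (add_le_add ?_ ((norm_add_le _ _).trans (add_le_add ?_ ?_)))
  · rw [norm_neg]
    refine m1.trans ?_
    have : 0 ≤ ‖c‖ * η ^ N := by positivity
    nlinarith
  · exact m2.trans (mul_le_mul_of_nonneg_left hT' hK)
  · rwa [norm_neg]

/-- **Approximation.** Every ℓ¹ idempotent has finitely supported almost idempotent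
approximations `a` such that the class traces of `e` are within `2 |c| ε^N` of the class traces
of `p a`, for every polynomial `p` with `p 0 = 0`, `p 1 = 1`, `p' = c (X^2 - X)^N`. -/
theorem approx {e : Fin q → Fin q → G → ℂ} (he : IsL1IdempotentMatrix e) (ε : ℝ) (hε : 0 < ε) :
    ∃ a : Mat G q, nrm a ≤ nrmE e ∧ nrm (a * a - a) ≤ ε ∧
      ∀ (C : ConjClasses G) (p : ℂ[X]) (c : ℂ) (N : ℕ), p.eval 0 = 0 → p.eval 1 = 1 →
        derivative p = Polynomial.C c * (X ^ 2 - X) ^ N →
        ‖trC C.carrier (aeval a p) - classTrace e C.carrier‖ ≤ 2 * (‖c‖ * ε ^ N) := by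
  have hA := nrmE_nonneg e
  have hδ : 0 < min 1 (ε / (2 * nrmE e + 5)) := lt_min one_pos (div_pos hε (by linarith))
  obtain ⟨S, hS⟩ := ((tendsto_tl e).eventually (gt_mem_nhds hδ)).exists
  have h2 : (2 * nrmE e + 5) * tl S e < ε := by
    have := hS.trans_le (min_le_right _ _)
    rwa [lt_div_iff₀ (by linarith), mul_comm] at this
  refine ⟨cutM S e, nrm_cutM_le S he, ?_, fun C p c N h0 h1 hp =>
    trC_aeval_cutM C he S ε (fun _ => hS.le.trans (min_le_left _ _)) h2 p c N h0 h1 hp⟩
  have := nrm_cutM_defect S he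
  have := tl_nonneg S e
  nlinarith

end Crest.Agent.R192
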