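import Mathlib

/-! Row 192: Kaplansky's positivity theorem: an idempotent of `ℂ[G]` whose coefficient at `1`
vanishes is zero. -/

set_option autoImplicit false

open scoped InnerProductSpace ComplexConjugate
open Filter Topology

namespace Crest.Agent.R192

theorem kap_aux {G : Type} [Group G] {H : Type} [NormedAddCommGroup H] [InnerProductSpace ℂ H]
    [CompleteSpace H] (v : G → H) (hv : Orthonormal ℂ v) (e : MonoidAlgebra ℂ G)
    (he : e * e = e) (h1 : e.coeff 1 = 0) : e = 0 := by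
  classical
  let ι : MonoidAlgebra ℂ G →ₗ[ℂ] H :=
    { toFun := fun a => Finsupp.linearCombination ℂ v a.coeff
      map_add' := fun a b => by simp
      map_smul' := fun c a => by simp }
  have F1 : ∀ (x : G) (b : MonoidAlgebra ℂ G), ⟪v x, ι b⟫_ℂ = b.coeff x := fun x b =>
    hv.inner_right_finsupp _ _
  have F1' : ∀ (x : G) (b : MonoidAlgebra ℂ G), ⟪ι b, v x⟫_ℂ = conj (b.coeff x) := fun x b =>
    hv.inner_left_finsupp _ _
  have hs : ∀ (x : G) (c : ℂ), ι (MonoidAlgebra.single x c) = c • v x := fun x c => by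
    simp [ι]
  have F2 : ∀ (x : G) (a b : MonoidAlgebra ℂ G),
      ⟪ι (a * MonoidAlgebra.single x 1), ι (b * MonoidAlgebra.single x 1)⟫_ℂ = ⟪ι a, ι b⟫_ℂ := by
    intro x a b
    induction a using MonoidAlgebra.induction_linear with
    | zero => simp
    | add a a' ha ha' => simp only [add_mul, map_add, inner_add_left, ha, ha']
    | single y c =>
      rw [MonoidAlgebra.single_mul_single, hs, hs, inner_smul_left, inner_smul_left, F1, F1,
        MonoidAlgebra.coeff_mul_single_apply]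
      simp
  have F3 : ∀ (x : G) (a : MonoidAlgebra ℂ G), ‖ι (a * MonoidAlgebra.single x 1)‖ = ‖ι a‖ := by
    intro x a
    rw [@norm_eq_sqrt_re_inner ℂ, @norm_eq_sqrt_re_inner ℂ _ _ _ _ (ι a), F2]
  let L : Submodule ℂ (MonoidAlgebra ℂ G) :=
    { carrier := {l | e * l = l}
      add_mem' := fun {a b} ha hb => by
        simp only [Set.mem_ofPred_eq] at ha hb ⊢
        rw [mul_add, ha, hb]
      zero_mem' := by simp
      smul_mem' := fun c a ha => by
        simp only [Set.mem_ofPred_eq] at ha ⊢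
        rw [mul_smul_comm, ha] }
  have hL : ∀ l, l ∈ L ↔ e * l = l := fun l => Iff.rfl
  have hLr : ∀ l ∈ L, ∀ b, l * b ∈ L := fun l hl b => by
    rw [hL] at hl ⊢
    rw [← mul_assoc, hl]
  let K : Submodule ℂ H := (L.map ι).topologicalClosure
  obtain ⟨ξ, hξK, hξ⟩ : ∃ ξ ∈ K, ∀ w ∈ K, ⟪w, v 1⟫_ℂ = ⟪w, ξ⟫_ℂ := by
    refine ⟨K.starProjection (v 1), K.starProjection_apply_mem _, fun w hw => ?_⟩
    have := K.sub_starProjection_mem_orthogonal (v 1)
    have h2 := (Submodule.mem_orthogonal _ _).1 this w hw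
    rw [inner_sub_right] at h2
    exact sub_eq_zero.1 h2
  have hLK : ∀ l ∈ L, ι l ∈ K := fun l hl =>
    (L.map ι).le_topologicalClosure ⟨l, hl, rfl⟩
  obtain ⟨u, hu, hlim⟩ := mem_closure_iff_seq_limit.1 (show ξ ∈ closure (L.map ι : Set H) from hξK)
  choose l hl hlu using hu
  have hlim' : Tendsto (fun n => ι (l n)) atTop (𝓝 ξ) := by
    simpa only [hlu] using hlim
  have hc : ∀ x, Tendsto (fun n => (l n).coeff x) atTop (𝓝 ⟪v x, ξ⟫_ℂ) := fun x => by
    have := (tendsto_const_nhds (x := v x)).inner (𝕜 := ℂ) hlim'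
    simpa only [F1] using this
  -- (a)
  have ha : ⟪v 1, ξ⟫_ℂ = ∑ x ∈ e.coeff.support, e.coeff x * ⟪v x⁻¹, ξ⟫_ℂ := by
    refine tendsto_nhds_unique (hc 1) ?_
    have : ∀ n, (l n).coeff 1 = ∑ x ∈ e.coeff.support, e.coeff x * (l n).coeff x⁻¹ := fun n => by
      conv_lhs => rw [← (hL _).1 (hl n)]
      rw [MonoidAlgebra.coeff_mul_apply_left]
      simp [Finsupp.sum]
    simp only [this]
    exact tendsto_finsetSum _ fun x _ => (hc _).const_mul _
  -- (b)
  have hD : ∀ x : G, Tendsto (fun n => ⟪ι (l n * MonoidAlgebra.single x⁻¹ 1), ι (l n)⟫_ℂ) atTop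
      (𝓝 (conj ⟪v x, ξ⟫_ℂ)) := by
    intro x
    have e1 : ∀ n, ⟪ι (l n * MonoidAlgebra.single x⁻¹ 1), ι (l n)⟫_ℂ =
        conj ((l n).coeff x) + ⟪ι (l n * MonoidAlgebra.single x⁻¹ 1), ι (l n) - ξ⟫_ℂ := fun n => by
      rw [inner_sub_right, ← hξ _ (hLK _ (hLr _ (hl n) _)), F1',
        MonoidAlgebra.coeff_mul_single_apply]
      simp
    simp only [e1]
    have e2 : Tendsto (fun n => ⟪ι (l n * MonoidAlgebra.single x⁻¹ 1), ι (l n) - ξ⟫_ℂ) atTop
        (𝓝 0) := by
      have e3 : Tendsto (fun n => ‖ι (l n)‖ * ‖ι (l n) - ξ‖) atTop (𝓝 (‖ξ‖ * ‖ξ - ξ‖)) :=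
        hlim'.norm.mul (hlim'.sub_const ξ).norm
      rw [sub_self, norm_zero, mul_zero] at e3
      refine squeeze_zero_norm (fun n => ?_) e3
      rw [← F3 x⁻¹ (l n)]
      exact norm_inner_le_norm _ _
    have := ((Complex.continuous_conj.tendsto _).comp (hc x)).add e2
    simpa using this
  have hb : ∀ x : G, ⟪v x⁻¹, ξ⟫_ℂ = conj ⟪v x, ξ⟫_ℂ := by
    intro x
    have e1 := (Complex.continuous_conj.tendsto _).comp (hD x⁻¹)
    rw [Complex.conj_conj] at e1
    refine tendsto_nhds_unique e1 ((hD x).congr fun n => ?_)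
    simp only [Function.comp, inner_conj_symm, inv_inv]
    rw [← F2 x, mul_assoc, MonoidAlgebra.single_mul_single, inv_mul_cancel, mul_one,
      ← MonoidAlgebra.one_def, mul_one]
  -- (c)
  have hc' : ⟪ι e, ξ⟫_ℂ = ∑ x ∈ e.coeff.support, conj (e.coeff x) * ⟪v x, ξ⟫_ℂ := by
    simp [ι, Finsupp.linearCombination_apply, Finsupp.sum, mul_comm]
  have hc1 : conj ⟪v 1, ξ⟫_ℂ = 0 := by
    have e1 := hξ _ (hLK e he)
    rw [F1', h1, map_zero, hc'] at e1
    rw [ha, map_sum, e1]
    refine Finset.sum_congr rfl fun x _ => ?_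
    rw [map_mul, hb, Complex.conj_conj]
  have hξ0 : ξ = 0 := by
    rw [inner_conj_symm, hξ ξ hξK] at hc1
    exact inner_self_eq_zero.1 hc1
  ext x
  have := hξ _ (hLK _ (hLr e he (MonoidAlgebra.single x⁻¹ 1)))
  rw [hξ0, inner_zero_right, F1', MonoidAlgebra.coeff_mul_single_apply] at this
  simpa using this

/-- Kaplansky: an idempotent of `ℂ[G]` with vanishing coefficient at `1` is zero. -/
theorem kaplansky {G : Type} [Group G] (e : MonoidAlgebra ℂ G)
    (he : e * e = e) (h1 : e.coeff 1 = 0) : e = 0 := by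
  classical
  refine kap_aux (H := lp (fun _ : G => ℂ) 2) (fun x => lp.single 2 x (1 : ℂ)) ?_ e he h1
  rw [orthonormal_iff_ite]
  intro x y
  rw [lp.inner_single_left]
  by_cases h : x = y
  · subst h; simp
  · simp [h, lp.single_apply]

end Crest.Agent.R192
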