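import Crest.Prelude.Def_L1GroupAlgebra
import Crest.Agent.R192.Kap

/-! Row 192: the ℓ¹ Bass statement (vanishing on classes of infinite order) implies the
idempotent statement. -/

set_option autoImplicit false

open Crest.AlgebraR.L1 Cardinal

namespace Crest.Agent.R192

/-- A countable domain of characteristic zero embeds in `ℂ`. -/
theorem exists_embedding (A : Type) [CommRing A] [IsDomain A] [CharZero A] [Countable A] :
    ∃ φ : A →+* ℂ, Function.Injective φ := by
  let P := MvPolynomial ℝ A
  let K := FractionRing P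
  let L := AlgebraicClosure K
  have hP : #P = 𝔠 := by
    rw [MvPolynomial.cardinalMk_eq_max, Cardinal.mk_real]
    have : #A ≤ 𝔠 := Cardinal.mk_le_aleph0.trans Cardinal.aleph0_le_continuum
    rw [max_eq_right this, max_eq_left Cardinal.aleph0_le_continuum]
  have hK : #K = 𝔠 := by rw [← hP]; exact (IsLocalization.cardinalMk (S := nonZeroDivisors P) (L := K) le_rfl)
  have hL : #L = 𝔠 := by
    apply le_antisymm
    · have := Algebra.IsAlgebraic.cardinalMk_le_max K L
      rwa [hK, max_eq_left Cardinal.aleph0_le_continuum] at this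
    · rw [← hK]; exact Cardinal.mk_le_of_injective (algebraMap K L).injective
  have : CharZero K := inferInstance
  have : CharZero L := inferInstance
  obtain ⟨ψ⟩ := IsAlgClosed.ringEquiv_of_equiv_of_charZero (K := L) (L := ℂ)
    (by rw [hL]; exact Cardinal.aleph0_lt_continuum)
    (Cardinal.eq.1 (by rw [hL, Cardinal.mk_complex]))
  refine ⟨ψ.toRingHom.comp ((algebraMap K L).comp ((algebraMap P K).comp MvPolynomial.C)), ?_⟩
  exact ψ.injective.comp ((algebraMap K L).injective.comp
    ((IsFractionRing.injective P K).comp (MvPolynomial.C_injective ℝ A)))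

/-- The complex case with zero augmentation. -/
theorem complex_case {G : Type} [Group G] (hG : ∀ g : G, IsOfFinOrder g → g = 1)
    (hB : ∀ e : Fin 1 → Fin 1 → G → ℂ, IsL1IdempotentMatrix e →
      ∀ g : G, ¬ IsOfFinOrder g → classTrace e (ConjClasses.mk g).carrier = 0)
    (e : MonoidAlgebra ℂ G) (he : e * e = e) (h0 : ∑ x ∈ e.coeff.support, e.coeff x = 0) :
    e = 0 := by
  classical
  refine kaplansky e he ?_
  have hid : IsL1IdempotentMatrix (fun (_ _ : Fin 1) (x : G) => e.coeff x) := by
    refine ⟨fun _ _ => ?_, fun _ _ x => ?_⟩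
    · refine summable_of_ne_finset_zero (s := e.coeff.support) fun x hx => ?_
      simpa using hx
    · simp only [Finset.univ_unique, Finset.sum_singleton, conv]
      conv_rhs => rw [← he]
      rw [MonoidAlgebra.coeff_mul_apply_left, tsum_eq_sum (s := e.coeff.support)]
      · rfl
      · intro y hy
        rw [Finsupp.notMem_support_iff.1 hy, zero_mul]
  have hcl : ∀ g : G, g ≠ 1 →
      ∑ x ∈ e.coeff.support with ConjClasses.mk x = ConjClasses.mk g, e.coeff x = 0 := by
    intro g hg
    have h1 := hB _ hid g fun h => hg (hG g h)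
    simp only [classTrace, Finset.univ_unique, Finset.sum_singleton] at h1
    rw [tsum_subtype (ConjClasses.mk g).carrier (fun x => e.coeff x),
      tsum_eq_sum (s := e.coeff.support)] at h1
    · rw [Finset.sum_filter]
      refine Eq.trans (Finset.sum_congr rfl fun x _ => ?_) h1
      simp only [Set.indicator_apply, ConjClasses.mem_carrier_iff_mk_eq]
    · intro y hy
      simp [Set.indicator_apply, Finsupp.notMem_support_iff.1 hy]
  by_cases h1 : (1 : G) ∈ e.coeff.support
  swap
  · exact Finsupp.notMem_support_iff.1 h1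
  rw [← Finset.sum_fiberwise_of_maps_to (g := ConjClasses.mk)
    (t := e.coeff.support.image ConjClasses.mk) (fun x hx => Finset.mem_image_of_mem _ hx),
    Finset.sum_eq_single (ConjClasses.mk (1 : G))] at h0
  · rw [← h0, Finset.sum_eq_single (1 : G)]
    · intro x hx hx1
      rw [Finset.mem_filter, ConjClasses.mk_eq_mk_iff_isConj, isConj_one_left] at hx
      exact absurd hx.2 hx1
    · intro h
      exact absurd (by simpa using h1) h
  · intro C hC hC1
    obtain ⟨g, -, rfl⟩ := Finset.mem_image.1 hC
    exact hcl g (by rintro rfl; exact hC1 rfl)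
  · intro h
    exact absurd (Finset.mem_image_of_mem _ h1) h

theorem zero_aug_case {G : Type} [Group G] (hG : ∀ g : G, IsOfFinOrder g → g = 1)
    (hB : ∀ e : Fin 1 → Fin 1 → G → ℂ, IsL1IdempotentMatrix e →
      ∀ g : G, ¬ IsOfFinOrder g → classTrace e (ConjClasses.mk g).carrier = 0)
    (R : Type) [CommRing R] [IsDomain R] [CharZero R]
    (e : MonoidAlgebra R G) (he : e * e = e) (h0 : ∑ x ∈ e.coeff.support, e.coeff x = 0) :
    e = 0 := by
  classical
  let A : Subring R := (Algebra.adjoin ℤ (e.coeff.support.image e.coeff : Set R)).toSubring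
  have hmem : ∀ x, e.coeff x ∈ A := fun x => by
    by_cases hx : x ∈ e.coeff.support
    · exact Algebra.subset_adjoin (R := ℤ) (by simpa using ⟨x, by simpa using hx, rfl⟩)
    · rw [Finsupp.notMem_support_iff.1 hx]; exact A.zero_mem
  have : Countable A := by
    have := Algebra.cardinalMk_adjoin_le ℤ (e.coeff.support.image e.coeff : Set R)
    rw [← Cardinal.mk_le_aleph0_iff]
    exact this.trans (max_le (max_le Cardinal.mk_le_aleph0 Cardinal.mk_le_aleph0) le_rfl)
  obtain ⟨φ, hφ⟩ := exists_embedding A
  let a : MonoidAlgebra A G := .ofCoeff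
    (Finsupp.onFinset e.coeff.support (fun x => ⟨e.coeff x, hmem x⟩) fun x hx => by
      rw [Finsupp.mem_support_iff]
      intro h
      exact hx (Subtype.ext h))
  have ha : ∀ x, (a.coeff x : R) = e.coeff x := fun x => rfl
  have hinj : Function.Injective (MonoidAlgebra.mapRingHom G A.subtype) := fun b c h => by
    ext x
    have := congrArg (fun z => z.coeff x) h
    simp only [MonoidAlgebra.coeff_mapRingHom] at this
    exact this
  have hae : MonoidAlgebra.mapRingHom G A.subtype a = e := by
    ext x
    rw [MonoidAlgebra.coeff_mapRingHom]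
    exact ha x
  have haa : a * a = a := hinj (by rw [map_mul, hae, he])
  have h1 : MonoidAlgebra.mapRingHom G φ a = 0 := by
    refine complex_case hG hB _ (by rw [← map_mul, haa]) ?_
    have e1 : ∑ x ∈ e.coeff.support, a.coeff x = 0 := by
      apply Subtype.ext
      rw [AddSubmonoidClass.coe_finsetSum]
      exact h0
    rw [← map_zero φ, ← e1, map_sum]
    refine Finset.sum_subset_zero_on_sdiff (fun x hx => ?_) (fun x hx => ?_) fun x _ => ?_
    · rw [Finsupp.mem_support_iff] at hx ⊢
      intro h
      apply hx
      rw [MonoidAlgebra.coeff_mapRingHom, show a.coeff x = 0 from Subtype.ext ((ha x).trans h),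
        map_zero]
    · have := Finsupp.notMem_support_iff.1 (Finset.mem_sdiff.1 hx).2
      rwa [MonoidAlgebra.coeff_mapRingHom] at this
    · rw [MonoidAlgebra.coeff_mapRingHom]
  ext x
  have := congrArg (fun z => z.coeff x) h1
  simp only [MonoidAlgebra.coeff_mapRingHom, MonoidAlgebra.coeff_zero, Finsupp.coe_zero,
    Pi.zero_apply] at this
  rw [← ha, hφ (this.trans (map_zero φ).symm)]
  rfl

/-- S0293 follows from the vanishing part of S0292 for `1 × 1` matrices. -/
theorem idem_of_bass (G : Type) [Group G]
    (hB : ∀ e : Fin 1 → Fin 1 → G → ℂ, IsL1IdempotentMatrix e →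
      ∀ g : G, ¬ IsOfFinOrder g → classTrace e (ConjClasses.mk g).carrier = 0)
    (hG : ∀ g : G, IsOfFinOrder g → g = 1) (R : Type) [CommRing R] [IsDomain R] [CharZero R]
    (e : MonoidAlgebra R G) (he : e * e = e) : e = 0 ∨ e = 1 := by
  classical
  let ε : MonoidAlgebra R G →ₐ[R] R := MonoidAlgebra.lift R R G 1
  have hε : ∀ b : MonoidAlgebra R G, ε b = ∑ x ∈ b.coeff.support, b.coeff x := fun b => by
    simp [ε, MonoidAlgebra.lift_apply, Finsupp.sum]
  have h1 : ε e * (ε e - 1) = 0 := by rw [mul_sub, ← map_mul, he, mul_one, sub_self]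
  rcases mul_eq_zero.1 h1 with h | h
  · exact Or.inl (zero_aug_case hG hB R e he (by rw [← hε, h]))
  · right
    have := zero_aug_case hG hB R (1 - e)
      (by rw [mul_sub, sub_mul, sub_mul, he]; simp) (by
        rw [← hε, map_sub, map_one, ← neg_sub, h, neg_zero])
    exact (sub_eq_zero.1 this).symm

end Crest.Agent.R192
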